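import Vale.Agent.P238.Final

namespace Vale.Agent.Results.P238.Lower

theorem result : ∃ c : ℝ, 0 < c ∧ ∃ n₀ : ℕ, ∀ n : ℕ, n₀ ≤ n →
    Real.exp (c * Real.sqrt (Real.log n * Real.log (Real.log n))) ≤ Vale.Agent.P238.c1 n :=
  Vale.Agent.P238.lower_bound

end Vale.Agent.Results.P238.Lower
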